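import Vale.Agent.Lib.P158.Main

/-!
# P158: no end of a bigeodesic (and no geodesic ray) stays in a strip parallel to an axis

Independent identically distributed edge weights on the square lattice, common law `G` on `[0,∞)`
which is not a point mass (every atomless law qualifies), no moment assumption.
Almost surely: along every geodesic ray both coordinates are unbounded, and along each of the two
ends of every bigeodesic both coordinates are unbounded.
-/

namespace Vale.Agent.Results.P158.StripEnds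

open scoped NNReal
open MeasureTheory ProbabilityTheory
open Vale.Agent.Lib.P158

theorem result {Ω : Type*} [MeasurableSpace Ω] (μ : Measure Ω) [IsProbabilityMeasure μ]
    (t : Edge → Ω → ℝ≥0) (ht : ∀ e, Measurable (t e)) (hind : iIndepFun t μ)
    (G : Measure ℝ≥0) (hlaw : ∀ e, μ.map (t e) = G) (hG : ∀ c, G {c} ≠ 1) :
    ∀ᵐ ω ∂μ,
      (∀ v : ℕ → ℤ × ℤ, IsRay (fun e => t e ω) v → ∀ K : ℕ,
        (∃ i, (K : ℤ) < |(v i).1|) ∧ (∃ i, (K : ℤ) < |(v i).2|)) ∧
      (∀ v : ℤ → ℤ × ℤ, IsBigeodesic (fun e => t e ω) v → ∀ K : ℕ,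
        (∃ i : ℤ, 0 ≤ i ∧ (K : ℤ) < |(v i).1|) ∧ (∃ i : ℤ, 0 ≤ i ∧ (K : ℤ) < |(v i).2|) ∧
        (∃ i : ℤ, i ≤ 0 ∧ (K : ℤ) < |(v i).1|) ∧ (∃ i : ℤ, i ≤ 0 ∧ (K : ℤ) < |(v i).2|)) := by
  filter_upwards [ray_unbounded μ t ht hind G hlaw hG,
    bigeodesic_ends_unbounded μ t ht hind G hlaw hG] with ω h1 h2
  exact ⟨h1, h2⟩

end Vale.Agent.Results.P158.StripEnds
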